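import Vale.Agent.P274.H959.Local

open Vale.Agent.P274

/-- Kollár and Pardon's bounded-domain question, for semianalytic sets, and a local form.

`zeroSet I ⊂ ℂ^N` is a closed affine variety (possibly singular), `U` is a bounded connected
relatively open subset of it, and a group `Γ` acts on `U` by holomorphic maps with compact
quotient.
(1) The question as posed: if `U` is semialgebraic and the action is properly discontinuous, then
`U` is biholomorphic to a bounded symmetric domain.
(2) The same for every semianalytic `U`; without proper discontinuity `U` is biholomorphic to a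
bounded and to a convex open subset of some `ℂ^n`.
(3) The local theorem: the conclusions of (2) hold if the closure of `U` has one point `q` which
is a smooth point of the variety, a local peak point of `U` and a point at which `U` is
semianalytic; nothing is assumed about `U` away from `q`.
(4) A point `q` farthest from some point `a` is a local peak point; so a bounded domain `U` of
`ℂ^N` with a properly discontinuous cocompact holomorphic action which is semianalytic at one such
point `q` of its closure is biholomorphic to a bounded symmetric domain. -/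
theorem Vale.Agent.Results.P274.SemianalyticRigidity.result :
    (∀ (N : ℕ) (I : Set (MvPolynomial (Fin N) ℂ)) (U : Set (EuclideanSpace ℂ (Fin N))),
      (∃ O, IsOpen O ∧ U = zeroSet I ∩ O) → IsConnected U → Bornology.IsBounded U →
      IsSemialgebraic U →
      ∀ (Γ : Type) [Group Γ] [MulAction Γ U], ActsHol Γ U → ProperlyDiscontinuousSMul Γ U →
      CompactSpace (MulAction.orbitRel.Quotient Γ U) →
      ∃ (n : ℕ) (D : Set (EuclideanSpace ℂ (Fin n))),
        IsBoundedSymmetricDomain D ∧ Z.Bihol U D) ∧
    (∀ (N : ℕ) (I : Set (MvPolynomial (Fin N) ℂ)) (U : Set (EuclideanSpace ℂ (Fin N))),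
      (∃ O, IsOpen O ∧ U = zeroSet I ∩ O) → IsConnected U → Bornology.IsBounded U →
      IsSemianalytic U →
      ∀ (Γ : Type) [Group Γ] [MulAction Γ U], ActsHol Γ U →
      CompactSpace (MulAction.orbitRel.Quotient Γ U) →
      HasConvexModel U ∧ (ProperlyDiscontinuousSMul Γ U → HasSymmetricModel U)) ∧
    (∀ (N : ℕ) (I : Set (MvPolynomial (Fin N) ℂ)) (U : Set (EuclideanSpace ℂ (Fin N))),
      (∃ O, IsOpen O ∧ U = zeroSet I ∩ O) → IsConnected U → Bornology.IsBounded U →
      ∀ q ∈ closure U, IsSmoothAt (zeroSet I) q → IsPeakAt U q → IsSemianalyticAt U q →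
      ∀ (Γ : Type) [Group Γ] [MulAction Γ U], ActsHol Γ U →
      CompactSpace (MulAction.orbitRel.Quotient Γ U) →
      HasConvexModel U ∧ (ProperlyDiscontinuousSMul Γ U → HasSymmetricModel U)) ∧
    (∀ (N : ℕ) (U : Set (EuclideanSpace ℂ (Fin N))) (a q : EuclideanSpace ℂ (Fin N)),
      (∀ z ∈ U, ‖z - a‖ ≤ ‖q - a‖) → IsPeakAt U q ∧
      (IsOpen U → IsConnected U → q ∈ closure U → IsSemianalyticAt U q →
        ∀ (Γ : Type) [Group Γ] [MulAction Γ U], ActsHol Γ U → ProperlyDiscontinuousSMul Γ U →
        CompactSpace (MulAction.orbitRel.Quotient Γ U) → HasSymmetricModel U)) := by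
  have hloc : ∀ (N : ℕ) (I : Set (MvPolynomial (Fin N) ℂ)) (U : Set (EuclideanSpace ℂ (Fin N))),
      (∃ O, IsOpen O ∧ U = zeroSet I ∩ O) → IsConnected U → Bornology.IsBounded U →
      ∀ q ∈ closure U, IsSmoothAt (zeroSet I) q → IsPeakAt U q → IsSemianalyticAt U q →
      ∀ (Γ : Type) [Group Γ] [MulAction Γ U], ActsHol Γ U →
      CompactSpace (MulAction.orbitRel.Quotient Γ U) →
      HasConvexModel U ∧ (ProperlyDiscontinuousSMul Γ U → HasSymmetricModel U) := by
    intro N I U hU hUc hb q hq hsm hpk hsa Γ _ _ hΓ hcpt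
    obtain ⟨O, hO, hUO⟩ := hU
    obtain ⟨K, hK, hKU, hco⟩ := exists_cocompactHol (Z.isClosed_zeroSet I) hO hUO hΓ
    have hqZ : q ∈ zeroSet I := by
      have h1 : U ⊆ zeroSet I := by
        rw [hUO]
        exact Set.inter_subset_left
      exact closure_minimal h1 (Z.isClosed_zeroSet I) hq
    obtain ⟨m, hm⟩ := H959.manPt_of_smooth hqZ hsm
    have h := H959.local_scaled I hO hUO hUc hb hK hKU hco hq hm hpk hsa
    exact ⟨H959.convex_of_scaled h, fun hprop => H959.symmetric_of_scaled hUc h Γ hΓ hprop hcpt⟩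
  refine ⟨?_, ?_, hloc, ?_⟩
  · intro N I U hU hUc hb hS Γ _ _ hΓ hprop hcpt
    exact Z.symmetric_result N I U hU hUc hb hS Γ hΓ hprop hcpt
  · intro N I U hU hUc hb hS Γ _ _ hΓ hcpt
    obtain ⟨O, hO, hUO⟩ := hU
    obtain ⟨K, hK, hKU, hco⟩ := exists_cocompactHol (Z.isClosed_zeroSet I) hO hUO hΓ
    have h := H959.semianalytic_scaled I hO hUO hUc hb hS hK hKU hco
    exact ⟨H959.convex_of_scaled h, fun hprop => H959.symmetric_of_scaled hUc h Γ hΓ hprop hcpt⟩
  · intro N U a q h
    refine ⟨H959.isPeakAt_of_farthest h, fun hUo hUc hq hsa Γ _ _ hΓ hprop hcpt => ?_⟩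
    have hz : zeroSet (∅ : Set (MvPolynomial (Fin N) ℂ)) = Set.univ :=
      Set.eq_univ_of_forall fun z f hf => absurd hf (Set.notMem_empty f)
    have hb : Bornology.IsBounded U :=
      (Metric.isBounded_closedBall (x := a) (r := ‖q - a‖)).subset fun z hzU => by
        rw [mem_closedBall_iff_norm]
        exact h z hzU
    have hsm : IsSmoothAt (zeroSet (∅ : Set (MvPolynomial (Fin N) ℂ))) q :=
      ⟨Set.univ, isOpen_univ, Set.mem_univ q, N, Set.univ, isOpen_univ, id, id,
        ⟨Z.HolOn.of_diffOn isOpen_univ (Set.subset_univ _) differentiableOn_id,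
          Z.HolOn.of_diffOn isOpen_univ (Set.subset_univ _) differentiableOn_id,
          fun _ _ => Set.mem_univ _, fun _ _ => by
            rw [hz, Set.inter_univ]
            exact Set.mem_univ _, fun _ _ => rfl, fun _ _ => rfl⟩⟩
    exact (hloc N ∅ U ⟨U, hUo, by rw [hz, Set.univ_inter]⟩ hUc hb q hq hsm
      (H959.isPeakAt_of_farthest h) hsa Γ hΓ hcpt).2 hprop
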