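import Vale.Agent.P274.H975.Siegel

open Vale.Agent.P274

/-- Kollár and Pardon's bounded-domain question, and its analogue in Stein spaces with algebraic
singularities.

(1) The question as posed: `zeroSet I ⊂ ℂ^N` is an affine variety (possibly singular), `U` is a
bounded connected semialgebraic relatively open subset of it, and a group `Γ` acts on `U`
properly discontinuously by holomorphic maps with compact quotient; then `U` is biholomorphic to
a bounded symmetric domain.
(2) `M` is any closed subset of `ℂ^N` which near each of its points is biholomorphic to a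
relatively open subset of an affine variety, `U` is a bounded connected relatively open subset of
`M`, `q` is a point of the closure of `U` which is farthest from some point `a`, and `U` is
semianalytic at the single point `q`. If a group acts on `U` by holomorphic maps with compact
quotient, then `U` is biholomorphic to a bounded open set of some `ℂ^n` and to a Siegel domain
(of the second kind); if moreover the action is properly discontinuous, then `U` is biholomorphic
to a bounded symmetric domain.
(3) The condition on `M` in (2) holds for affine varieties and for complex submanifolds. -/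
theorem Vale.Agent.Results.P274.SteinSpaces.result :
    (∀ (N : ℕ) (I : Set (MvPolynomial (Fin N) ℂ)) (U : Set (EuclideanSpace ℂ (Fin N))),
      (∃ O, IsOpen O ∧ U = zeroSet I ∩ O) → IsConnected U → Bornology.IsBounded U →
      IsSemialgebraic U →
      ∀ (Γ : Type) [Group Γ] [MulAction Γ U], ActsHol Γ U → ProperlyDiscontinuousSMul Γ U →
      CompactSpace (MulAction.orbitRel.Quotient Γ U) →
      ∃ (n : ℕ) (D : Set (EuclideanSpace ℂ (Fin n))),
        IsBoundedSymmetricDomain D ∧ Z.Bihol U D) ∧
    (∀ (N : ℕ) (M U : Set (EuclideanSpace ℂ (Fin N))),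
      IsClosed M → HasAlgebraicSingularities M →
      (∃ O, IsOpen O ∧ U = M ∩ O) → IsConnected U → Bornology.IsBounded U →
      ∀ a q, q ∈ closure U → (∀ z ∈ U, ‖z - a‖ ≤ ‖q - a‖) → IsSemianalyticAt U q →
      ∀ (Γ : Type) [Group Γ] [MulAction Γ U], ActsHol Γ U →
      CompactSpace (MulAction.orbitRel.Quotient Γ U) →
      (∃ (n : ℕ) (B : Set (EuclideanSpace ℂ (Fin n))),
        IsOpen B ∧ Bornology.IsBounded B ∧ Z.Bihol U B) ∧
      (∃ (l k : ℕ) (S : Set ((Fin l → ℂ) × (Fin k → ℂ))), IsSiegelDomain S ∧ Z.Bihol U S) ∧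
      (ProperlyDiscontinuousSMul Γ U →
        ∃ (n : ℕ) (D : Set (EuclideanSpace ℂ (Fin n))),
          IsBoundedSymmetricDomain D ∧ Z.Bihol U D)) ∧
    (∀ (N : ℕ) (I : Set (MvPolynomial (Fin N) ℂ)), HasAlgebraicSingularities (zeroSet I)) ∧
    (∀ (N : ℕ) (M : Set (EuclideanSpace ℂ (Fin N))),
      (∀ z ∈ M, ∃ W, IsOpen W ∧ z ∈ W ∧ ∃ (m : ℕ) (B : Set (EuclideanSpace ℂ (Fin m))),
        IsOpen B ∧ Z.Bihol (M ∩ W) B) → HasAlgebraicSingularities M) := by
  refine ⟨?_, ?_, ?_, ?_⟩
  · intro N I U hU hUc hb hS Γ _ _ hΓ hprop hcpt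
    exact Z.symmetric_result N I U hU hUc hb hS Γ hΓ hprop hcpt
  · intro N M U hM hMs hU hUc hb a q hq hfar hsa Γ _ _ hΓ hcpt
    obtain ⟨O, hO, hUO⟩ := hU
    obtain ⟨K, hK, hKU, hco⟩ := exists_cocompactHol hM hO hUO hΓ
    have h := H975.scaled_of_algebraicSingularities hM hMs hO hUO hUc hb hK hKU hco hq
      (H959.isPeakAt_of_farthest hfar) hsa
    obtain ⟨n, B, C, hB, hBb, -, -, hUB, -⟩ := H959.convex_of_scaled h
    exact ⟨⟨n, B, hB, hBb, hUB⟩, H975.siegel_of_scaled h,
      fun hprop => H959.symmetric_of_scaled hUc h Γ hΓ hprop hcpt⟩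
  · intro N I z hz
    exact ⟨Set.univ, isOpen_univ, Set.mem_univ z, N, I, Set.univ, isOpen_univ, id, id,
      Z.HolOn.of_diffOn isOpen_univ (Set.subset_univ _) differentiableOn_id,
      Z.HolOn.of_diffOn isOpen_univ (Set.subset_univ _) differentiableOn_id,
      fun _ h => h, fun _ h => h, fun _ _ => rfl, fun _ _ => rfl⟩
  · intro N M hM z hz
    obtain ⟨W, hW, hzW, m, B, hB, hb⟩ := hM z hz
    refine ⟨W, hW, hzW, m, ∅, B, hB, ?_⟩
    have h0 : zeroSet (∅ : Set (MvPolynomial (Fin m) ℂ)) = Set.univ :=
      Set.eq_univ_of_forall fun z f hf => absurd hf (Set.notMem_empty f)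
    rw [h0, Set.univ_inter]
    exact hb
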